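import Vale.Agent.P146.H119.KPathSK
import Vale.Agent.P146.H205.E2

/-!
# P146: the numbers of one amplitude law, as functions of the shares

`Law` collects the parameters of one amplitude law: `vp` is the variance of the plain field, `s ^ 2`
the variance of the modulated one, `x` the exponent. `cb t`, `cf v u` are the two levels
(revealed = `true`) with bond share `t` and field share `u`.

* `L.ex' t u Ψ`: mean of `Ψ` in the law with the two levels of shares `t`, `u`;
* `L.cx' S t u f`: conditional mean of `⟨f⟩` given the revealed set (bonds inside `S` at the share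
  `t`, plain field on `S` at the share `u`);
* `L.pp`, `L.ff`, `L.qq`, `L.rk`: second moments.
-/

open MeasureTheory ProbabilityTheory

namespace Vale.Agent.P146.H418

open Vale.Agent.P157.Lv Vale.Agent.P146.H196 Vale.Agent.P146.H646 Vale.Agent.P146.H475
  Vale.Agent.P146.H816 Vale.Agent.P146.H325 Vale.Agent.P146.H347 Vale.Agent.P146.H119
  Vale.Agent.P146.H205 Vale.Agent.P146.H425

/-- the parameters of one amplitude law -/
structure Law where
  n : ℕ
  b : ℝ
  vp : ℝ
  s : ℝ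
  lam : ℝ
  η : ℝ
  c : ℝ
  x : ℝ

/-- the two levels, `true` is revealed -/
noncomputable def cb (t : ℝ) : Bool → ℝ := fun l => if l then √t else √(1 - t)

/-- the two levels of the plain field -/
noncomputable def cf (v u : ℝ) : Bool → ℝ := fun l => √v * cb u l

lemma sum_cb {t : ℝ} (h0 : 0 ≤ t) (h1 : t ≤ 1) : ∑ l, cb t l ^ 2 = 1 := by
  simp [cb, Real.sq_sqrt h0, Real.sq_sqrt (show 0 ≤ 1 - t by linarith)]

lemma sum_cf {v u : ℝ} (hv : 0 ≤ v) (h0 : 0 ≤ u) (h1 : u ≤ 1) : ∑ l, cf v u l ^ 2 = v := by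
  have h : ∀ l, cf v u l ^ 2 = v * cb u l ^ 2 := fun l => by
    unfold cf
    rw [mul_pow, Real.sq_sqrt hv]
  simp only [h, ← Finset.mul_sum, sum_cb h0 h1, mul_one]

/-- the sites which are not hidden when `m` sites are hidden -/
def Sn (n m : ℕ) : Finset (Fin n) := Finset.univ.filter fun i => (i : ℕ) + m < n

/-- the revealed set -/
def Kt (n : ℕ) (S : Finset (Fin n)) : Finset (Co n Bool Bool) := Kset S {true} {true}

namespace Law

variable (L : Law)

/-- the relative entropy of the law -/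
noncomputable def KA : ℝ :=
  KL (Fm L.n L.b (fun _ : Unit => 1) (fun _ : Unit => √L.vp) L.s L.lam L.η L.c) L.x

/-- the weight at the shares `t`, `u` -/
noncomputable def wt (t u : ℝ) : (Co L.n Bool Bool → ℝ) → ℝ :=
  Wx L.n L.b (cb t) (cf L.vp u) L.s L.η L.lam L.c L.x

/-- the thermal average at the shares `t`, `u` -/
noncomputable def av (t u : ℝ) (f : ℝ × Xs L.n → ℝ) : (Co L.n Bool Bool → ℝ) → ℝ :=
  avm (muA (Xs L.n) L.lam L.η L.c) 1 (Sm L.b (cb t) (cf L.vp u) L.s L.η) f

/-- the mean -/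
noncomputable def ex' (t u : ℝ) (Ψ : (Co L.n Bool Bool → ℝ) → ℝ) : ℝ := ex (g1 _) (L.wt t u) Ψ

/-- the conditional mean of a spin observable -/
noncomputable def cx' (S : Finset (Fin L.n)) (t u : ℝ) (f : ℝ × Xs L.n → ℝ) :
    (Co L.n Bool Bool → ℝ) → ℝ := cx (g1 _) (Kt L.n S) (L.wt t u) (L.av t u f)

/-- the pairs: `E ∑_(p inside S) (cx <σσ>)²` -/
noncomputable def pp (S : Finset (Fin L.n)) (t u : ℝ) : ℝ :=
  L.ex' t u fun z => ∑ p ∈ ps S, L.cx' S t u (fun w => SkS p w.2) z ^ 2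

/-- the sites: `E ∑_(i in S) (cx <σ>)²` -/
noncomputable def ff (S : Finset (Fin L.n)) (t u : ℝ) : ℝ :=
  L.ex' t u fun z => ∑ i ∈ S, L.cx' S t u (fun w => sp w.2 i) z ^ 2

/-- the overlap: `Q = (1/n) ∑_(i in S) (cx <a σ>)²` -/
noncomputable def Q (S : Finset (Fin L.n)) (t u : ℝ) (z : Co L.n Bool Bool → ℝ) : ℝ :=
  (∑ i ∈ S, L.cx' S t u (fun w => al L.η w.1 * sp w.2 i) z ^ 2) / L.n

/-- `Q` without the amplitude -/
noncomputable def Q0 (S : Finset (Fin L.n)) (t u : ℝ) (z : Co L.n Bool Bool → ℝ) : ℝ :=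
  (∑ i ∈ S, L.cx' S t u (fun w => sp w.2 i) z ^ 2) / L.n

/-- the second moment of `Q` -/
noncomputable def qq (S : Finset (Fin L.n)) (t u : ℝ) : ℝ := L.ex' t u fun z => L.Q S t u z ^ 2

/-- the rank one number -/
noncomputable def rk (S : Finset (Fin L.n)) (t u : ℝ) : ℝ :=
  (L.ex' t u fun z => ∑ i ∈ S, ∑ j ∈ S, (L.cx' S t u (fun w => sp w.2 i * sp w.2 j) z -
    L.cx' S t u (fun w => sp w.2 i) z * L.cx' S t u (fun w => sp w.2 j) z) ^ 2) / L.n ^ 2

/-- the second moment of the overlap of two copies, without the diagonal -/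
noncomputable def rr (S : Finset (Fin L.n)) (t u : ℝ) : ℝ := 2 * L.pp S t u / L.n ^ 2

lemma pp_eq (S : Finset (Fin L.n)) (t u : ℝ) :
    L.pp S t u = Q2 L.n L.b (cb t) (cf L.vp u) L.s L.lam L.η L.c L.x S (Kset S {true} {true}) := rfl

lemma ff_eq (S : Finset (Fin L.n)) (t u : ℝ) :
    L.ff S t u = Q1 L.n L.b (cb t) (cf L.vp u) L.s L.lam L.η L.c L.x S (Kset S {true} {true}) := rfl

end Law

end Vale.Agent.P146.H418
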