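import Vale.Agent.P146.H418.Skel
import Vale.Agent.P146.H529.LinkAP
import Vale.Agent.P146.H317.UpLow
import Vale.Agent.P146.H470.Bud

/-!
# P146: the data of the amplitude laws

All the exponents are multiples of one small number `q`; `1000 q` is the distance to the end
exponent `a0`.

* `lawOf`: the law attached to `(n, b, y, V, al, s, lam, η)`;
* `KW`: the window;
* `etaF`, `lamF`, `s1F`, `s2F`: the parameters as functions of `(n, y, V)`;
* `kw_one`, `kw_two`: the two choices are in the window.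
-/

open MeasureTheory ProbabilityTheory Filter Topology

namespace Vale.Agent.P146.H418

open Vale.Agent.P146.H425 Vale.Agent.P146.H317 Vale.Agent.P146.H529 Vale.Agent.P146.H470

/-- the law attached to the data -/
noncomputable def lawOf (n : ℕ) (b y V al s lam η : ℝ) : Law :=
  ⟨n, b, V - s ^ 2, s, lam, η, cc n b s al, y⟩

lemma KA_lawOf (n : ℕ) (b y V al s lam η : ℝ) : (lawOf n b y V al s lam η).KA =
    KL (Fsk n Unit Unit b (fun _ => 1) (fun _ => √(V - s ^ 2)) lam s η (cc n b s al)) y := rfl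

/-- the window of the data; `A` is any constant -/
structure KW (a0 b₁ q A b : ℝ) (n : ℕ) (y V al s lam η : ℝ) : Prop where
  n1 : 1 < n
  y0 : 0 < y
  yl : (n : ℝ) ^ (-a0 + 1000 * q) ≤ A * y
  yu : y ≤ A * (n : ℝ) ^ (-b₁)
  V0 : 0 < V
  Vl : (n : ℝ) ^ (-(24 * q)) * y ^ 3 ≤ A * V
  Vu : V ≤ A * ((n : ℝ) ^ (-(24 * q)) * y ^ 3)
  sg : SG n b y V al
  ap : H178.AP b (q / 2) n y (2 * V)
  s0 : 0 < s
  s2 : s ^ 2 ≤ (n : ℝ) ^ (-(80 * q)) * V
  η0 : 0 < η
  η1 : η ≤ (n : ℝ) ^ (-(2000 * q))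
  l0 : 0 < lam
  ll : (n : ℝ) ^ q ≤ y * (lam * η)
  gg : lam ≤ (n : ℝ) ^ (-(3800 * q)) * y ^ 2 * (s ^ 2 * n)

/-- the width of the amplitude -/
noncomputable def etaF (q : ℝ) (n : ℕ) : ℝ := (n : ℝ) ^ (-(2000 * q))

/-- the rate of the amplitude -/
noncomputable def lamF (q : ℝ) (n : ℕ) (y : ℝ) : ℝ := (n : ℝ) ^ (2001 * q) / y

/-- the modulated field, first choice (`y ≥ n^(-1/7+)`) -/
noncomputable def s1F (q : ℝ) (n : ℕ) (y : ℝ) : ℝ := √((n : ℝ) ^ (-(37 * q)) * y ^ 4)

/-- the modulated field, second choice -/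
noncomputable def s2F (q : ℝ) (n : ℕ) (V : ℝ) : ℝ := √((n : ℝ) ^ (-(80 * q)) * V)

section

variable {a0 b₁ q A b : ℝ}

lemma yl_log {n : ℕ} {y : ℝ} (hn : 1 < n) (hA : 1 ≤ A)
    (h : (n : ℝ) ^ (-a0 + 1000 * q) ≤ A * y) :
    0 < y ∧ (-a0 + 1000 * q) * Real.log n ≤ Real.log A + Real.log y := by
  have hn0 : (0 : ℝ) < n := by exact_mod_cast (by omega : 0 < n)
  have hA0 : 0 < A := by linarith
  have hp : 0 < A * y := lt_of_lt_of_le (Real.rpow_pos_of_pos hn0 _) h
  have hy : 0 < y := by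
    by_contra hy
    push Not at hy
    nlinarith
  refine ⟨hy, ?_⟩
  have := Real.log_le_log (Real.rpow_pos_of_pos hn0 _) h
  rwa [Real.log_rpow hn0, Real.log_mul hA0.ne' hy.ne'] at this

/-- The first choice: `s² = n^(-37q) y⁴`. -/
theorem kw_one (hq : 0 < q) (ha0 : a0 ≤ 1 / 7) (hb₁ : 100 * q < b₁) (hA : 1 ≤ A) :
    ∀ᶠ n : ℕ in atTop, ∀ y V al : ℝ, (n : ℝ) ^ (-a0 + 1000 * q) ≤ A * y →
      y ≤ A * (n : ℝ) ^ (-b₁) → (n : ℝ) ^ (-(24 * q)) * y ^ 3 ≤ A * V →
      V ≤ A * ((n : ℝ) ^ (-(24 * q)) * y ^ 3) → SG n b y V al → H178.AP b (q / 2) n y (2 * V) →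
      KW a0 b₁ q A b n y V al (s1F q n y) (lamF q n y) (etaF q n) := by
  filter_upwards [ev_log (θ := q) hq (2 * Real.log A), ev_log (θ := q) hq (7 * Real.log A),
    eventually_gt_atTop 1] with n e1 e2 hn
  intro y V al h1 h2 h3 h4 h5 h6
  have hn0 : (0 : ℝ) < n := by exact_mod_cast (by omega : 0 < n)
  have hn1 : (1 : ℝ) < n := by exact_mod_cast hn
  have hL : 0 < Real.log n := Real.log_pos hn1
  have hA0 : 0 < A := by linarith
  obtain ⟨hy, h1'⟩ := yl_log hn hA h1
  have h2' := Real.log_le_log hy h2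
  rw [Real.log_mul hA0.ne' (by positivity), Real.log_rpow hn0] at h2'
  have hV : 0 < V := by
    have : 0 < A * V := lt_of_lt_of_le (by positivity) h3
    by_contra hV
    push Not at hV
    nlinarith
  have h3' := Real.log_le_log (by positivity) h3
  rw [Real.log_mul (by positivity) (by positivity), Real.log_rpow hn0, Real.log_pow,
    Real.log_mul hA0.ne' hV.ne'] at h3'
  push_cast at h3'
  have hs2 : s1F q n y ^ 2 = (n : ℝ) ^ (-(37 * q)) * y ^ 4 := Real.sq_sqrt (by positivity)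
  have m1 : q * Real.log n * 100 < b₁ * Real.log n := by
    have := mul_lt_mul_of_pos_right hb₁ hL
    linarith
  have m2 : a0 * Real.log n ≤ 1 / 7 * Real.log n := mul_le_mul_of_nonneg_right ha0 hL.le
  have m3 : 0 < q * Real.log n := mul_pos hq hL
  refine ⟨hn, hy, h1, h2, hV, h3, h4, h5, h6, Real.sqrt_pos.2 (by positivity), ?_,
    Real.rpow_pos_of_pos hn0 _, le_rfl, div_pos (Real.rpow_pos_of_pos hn0 _) hy, ?_, ?_⟩
  · rw [hs2]
    refine le_of_log (by positivity) (by positivity) ?_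
    rw [Real.log_mul (by positivity) (by positivity), Real.log_mul (by positivity) hV.ne',
      Real.log_rpow hn0, Real.log_rpow hn0, Real.log_pow]
    push_cast
    linarith
  · unfold lamF etaF
    have e : y * ((n : ℝ) ^ (2001 * q) / y * (n : ℝ) ^ (-(2000 * q))) =
        (n : ℝ) ^ (2001 * q) * (n : ℝ) ^ (-(2000 * q)) := by
      field_simp
    rw [e, ← Real.rpow_add hn0]
    refine Real.rpow_le_rpow_of_exponent_le hn1.le ?_
    linarith
  · rw [hs2]
    unfold lamF
    refine le_of_log (by positivity) (by positivity) ?_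
    rw [Real.log_div (by positivity) hy.ne', Real.log_mul (by positivity) (by positivity),
      Real.log_mul (by positivity) (by positivity), Real.log_mul (by positivity) (by positivity),
      Real.log_mul (by positivity) (by positivity), Real.log_rpow hn0, Real.log_rpow hn0,
      Real.log_rpow hn0, Real.log_pow, Real.log_pow]
    push_cast
    linarith

/-- The second choice: `s² = n^(-80q) V`. -/
theorem kw_two (hq : 0 < q) (ha0 : a0 ≤ 1 / 6) (hA : 1 ≤ A) :
    ∀ᶠ n : ℕ in atTop, ∀ y V al : ℝ, (n : ℝ) ^ (-a0 + 1000 * q) ≤ A * y →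
      y ≤ A * (n : ℝ) ^ (-b₁) → (n : ℝ) ^ (-(24 * q)) * y ^ 3 ≤ A * V →
      V ≤ A * ((n : ℝ) ^ (-(24 * q)) * y ^ 3) → SG n b y V al → H178.AP b (q / 2) n y (2 * V) →
      KW a0 b₁ q A b n y V al (s2F q n V) (lamF q n y) (etaF q n) := by
  filter_upwards [ev_log (θ := q) hq (2 * Real.log A), ev_log (θ := q) hq (7 * Real.log A),
    eventually_gt_atTop 1] with n e1 e2 hn
  intro y V al h1 h2 h3 h4 h5 h6
  have hn0 : (0 : ℝ) < n := by exact_mod_cast (by omega : 0 < n)
  have hn1 : (1 : ℝ) < n := by exact_mod_cast hn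
  have hL : 0 < Real.log n := Real.log_pos hn1
  have hA0 : 0 < A := by linarith
  obtain ⟨hy, h1'⟩ := yl_log hn hA h1
  have hV : 0 < V := by
    have : 0 < A * V := lt_of_lt_of_le (by positivity) h3
    by_contra hV
    push Not at hV
    nlinarith
  have h3' := Real.log_le_log (by positivity) h3
  rw [Real.log_mul (by positivity) (by positivity), Real.log_rpow hn0, Real.log_pow,
    Real.log_mul hA0.ne' hV.ne'] at h3'
  push_cast at h3'
  have hs2 : s2F q n V ^ 2 = (n : ℝ) ^ (-(80 * q)) * V := Real.sq_sqrt (by positivity)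
  have m2 : a0 * Real.log n ≤ 1 / 6 * Real.log n := mul_le_mul_of_nonneg_right ha0 hL.le
  have m3 : 0 < q * Real.log n := mul_pos hq hL
  refine ⟨hn, hy, h1, h2, hV, h3, h4, h5, h6, Real.sqrt_pos.2 (by positivity), ?_,
    Real.rpow_pos_of_pos hn0 _, le_rfl, div_pos (Real.rpow_pos_of_pos hn0 _) hy, ?_, ?_⟩
  · rw [hs2]
  · unfold lamF etaF
    have e : y * ((n : ℝ) ^ (2001 * q) / y * (n : ℝ) ^ (-(2000 * q))) =
        (n : ℝ) ^ (2001 * q) * (n : ℝ) ^ (-(2000 * q)) := by
      field_simp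
    rw [e, ← Real.rpow_add hn0]
    refine Real.rpow_le_rpow_of_exponent_le hn1.le ?_
    linarith
  · rw [hs2]
    unfold lamF
    refine le_of_log (by positivity) (by positivity) ?_
    rw [Real.log_div (by positivity) hy.ne', Real.log_mul (by positivity) (by positivity),
      Real.log_mul (by positivity) (by positivity), Real.log_mul (by positivity) (by positivity),
      Real.log_mul (by positivity) hV.ne', Real.log_rpow hn0, Real.log_rpow hn0,
      Real.log_rpow hn0, Real.log_pow]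
    push_cast
    linarith

end

end Vale.Agent.P146.H418
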