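import Vale.Agent.P146.H317.UpLow

/-!
# P146: from a path of levels to the two-sided formula of the relative entropy

The levels are geometric, `g η l = (1 + η)⁻¹ ^ l`.

* `grid_up`, `grid_low`: sums over the levels and integrals, for an antitone function;
* `kamp_up`, `kamp_low`: the relative entropy against `J c a w = ∫₀¹ ρ²`.
-/

open MeasureTheory Set Filter Topology

namespace Vale.Agent.P146.H418

open Vale.Agent.P146.H317

/-- the geometric levels -/
noncomputable def gg (η : ℝ) (l : ℕ) : ℝ := ((1 + η)⁻¹) ^ l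

section grid

variable {η : ℝ} {r : ℝ → ℝ}

lemma gg_zero (η : ℝ) : gg η 0 = 1 := pow_zero _

lemma gg_pos (hη : 0 ≤ η) (l : ℕ) : 0 < gg η l := by
  unfold gg
  positivity

lemma gg_succ (hη : 0 ≤ η) (l : ℕ) : (1 + η) * gg η (l + 1) = gg η l := by
  have h : (1 + η) ≠ 0 := by positivity
  unfold gg
  rw [pow_succ]
  field_simp

lemma gg_succ_le (hη : 0 ≤ η) (l : ℕ) : gg η (l + 1) ≤ gg η l := by
  have h1 := gg_succ hη l
  have h2 := gg_pos hη (l + 1)
  nlinarith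

lemma gg_anti (hη : 0 ≤ η) : Antitone (gg η) := antitone_nat_of_succ_le (gg_succ_le hη)

lemma gg_le_one (hη : 0 ≤ η) (l : ℕ) : gg η l ≤ 1 := by
  have := gg_anti hη (Nat.zero_le l)
  rwa [gg_zero] at this

lemma gg_step (hη : 0 ≤ η) (l : ℕ) :
    gg η l - gg η (l + 1) = (1 + η) * (gg η (l + 1) - gg η (l + 2)) := by
  have h1 := gg_succ hη l
  have h2 := gg_succ hη (l + 1)
  have e : l + 1 + 1 = l + 2 := rfl
  rw [e] at h2
  linear_combination -h1 + h2

/-- there is a level in every window `[T / (1 + η), T]` -/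
lemma exists_level (hη : 0 < η) {T : ℝ} (hT : 0 < T) (hT1 : T ≤ 1) :
    ∃ N : ℕ, gg η N ≤ T ∧ T ≤ (1 + η) * gg η N := by
  have h1 : (1 : ℝ) ≤ 1 / T := by rw [le_div_iff₀ hT]; linarith
  obtain ⟨N, hN⟩ := pow_unbounded_of_one_lt (1 / T) (show (1 : ℝ) < 1 + η by linarith)
  have hex : ∃ N : ℕ, gg η N ≤ T := by
    refine ⟨N, ?_⟩
    unfold gg
    rw [inv_pow]
    rw [div_lt_iff₀ hT] at hN
    rw [inv_le_iff_one_le_mul₀ (by positivity)]
    linarith
  classical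
  refine ⟨Nat.find hex, Nat.find_spec hex, ?_⟩
  rcases Nat.eq_zero_or_pos (Nat.find hex) with h0 | h0
  · rw [h0, gg_zero]
    linarith
  · have h2 := Nat.find_min hex (Nat.sub_lt h0 one_pos)
    rw [not_le] at h2
    have e : Nat.find hex - 1 + 1 = Nat.find hex := by omega
    have h3 := gg_succ hη.le (Nat.find hex - 1)
    rw [e] at h3
    rw [h3]
    exact h2.le

lemma ii_anti (hr : AntitoneOn r (Ioc 0 1)) {s t : ℝ} (hs : 0 < s) (hst : s ≤ t) (ht : t ≤ 1) :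
    IntervalIntegrable r volume s t := by
  refine AntitoneOn.intervalIntegrable ?_
  rw [uIcc_of_le hst]
  exact hr.mono fun u hu => ⟨hs.trans_le hu.1, hu.2.trans ht⟩

lemma int_ge_right (hr : AntitoneOn r (Ioc 0 1)) {s t : ℝ} (hs : 0 < s) (hst : s ≤ t)
    (ht : t ≤ 1) : (t - s) * r t ≤ ∫ T in s..t, r T := by
  have h : ∫ _T in s..t, r t = (t - s) * r t := by
    rw [intervalIntegral.integral_const, smul_eq_mul]
  rw [← h]
  refine intervalIntegral.integral_mono_on hst (by simp) (ii_anti hr hs hst ht) fun T hT => ?_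
  exact hr ⟨hs.trans_le hT.1, hT.2.trans ht⟩ ⟨hs.trans_le hst, ht⟩ hT.2

lemma int_le_left (hr : AntitoneOn r (Ioc 0 1)) {s t : ℝ} (hs : 0 < s) (hst : s ≤ t)
    (ht : t ≤ 1) : ∫ T in s..t, r T ≤ (t - s) * r s := by
  have h : ∫ _T in s..t, r s = (t - s) * r s := by
    rw [intervalIntegral.integral_const, smul_eq_mul]
  rw [← h]
  refine intervalIntegral.integral_mono_on hst (ii_anti hr hs hst ht) (by simp) fun T hT => ?_
  exact hr ⟨hs, hst.trans ht⟩ ⟨hs.trans_le hT.1, hT.2.trans ht⟩ hT.1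

/-- **Upper sums.** -/
theorem grid_up (hη : 0 ≤ η) (hr : AntitoneOn r (Ioc 0 1)) (hr0 : ∀ T ∈ Ioc (0 : ℝ) 1, 0 ≤ r T)
    (N : ℕ) : ∑ l ∈ Finset.range N, (gg η l - gg η (l + 1)) * r (gg η (l + 1)) ≤
      (1 + η) * ∫ T in (gg η (N + 1))..1, r T := by
  have key : ∑ l ∈ Finset.range N, (gg η l - gg η (l + 1)) * r (gg η (l + 1)) ≤
      (1 + η) * ∫ T in (gg η (N + 1))..(gg η 1), r T := by
    induction N with
    | zero => simp
    | succ N ih =>
      rw [Finset.sum_range_succ]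
      have h1 := int_ge_right hr (gg_pos hη (N + 2)) (gg_succ_le hη (N + 1)) (gg_le_one hη (N + 1))
      have i1 : IntervalIntegrable r volume (gg η (N + 2)) (gg η (N + 1)) :=
        ii_anti hr (gg_pos hη (N + 2)) (gg_succ_le hη (N + 1)) (gg_le_one hη (N + 1))
      have i2 : IntervalIntegrable r volume (gg η (N + 1)) (gg η 1) :=
        ii_anti hr (gg_pos hη (N + 1)) (gg_anti hη (by omega)) (gg_le_one hη 1)
      have e1 : ∫ T in (gg η (N + 1 + 1))..(gg η 1), r T =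
          (∫ T in (gg η (N + 2))..(gg η (N + 1)), r T) + ∫ T in (gg η (N + 1))..(gg η 1), r T :=
        (intervalIntegral.integral_add_adjacent_intervals i1 i2).symm
      rw [e1, gg_step hη N]
      have h2 : (1 + η) * ((gg η (N + 1) - gg η (N + 2)) * r (gg η (N + 1))) ≤
          (1 + η) * ∫ T in (gg η (N + 2))..(gg η (N + 1)), r T :=
        mul_le_mul_of_nonneg_left h1 (by linarith)
      linarith
  refine key.trans (mul_le_mul_of_nonneg_left ?_ (by linarith))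
  have i2 : IntervalIntegrable r volume (gg η (N + 1)) (gg η 1) :=
    ii_anti hr (gg_pos hη (N + 1)) (gg_anti hη (by omega)) (gg_le_one hη 1)
  have i3 : IntervalIntegrable r volume (gg η 1) 1 :=
    ii_anti hr (gg_pos hη 1) (gg_le_one hη 1) le_rfl
  rw [← intervalIntegral.integral_add_adjacent_intervals i2 i3]
  have h3 : 0 ≤ ∫ T in (gg η 1)..1, r T := by
    refine intervalIntegral.integral_nonneg (gg_le_one hη 1) fun T hT => hr0 T ?_
    exact ⟨(gg_pos hη 1).trans_le hT.1, hT.2⟩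
  linarith

/-- **Lower sums.** -/
theorem grid_low (hη : 0 ≤ η) (hr : AntitoneOn r (Ioc 0 1)) (hr0 : ∀ T ∈ Ioc (0 : ℝ) 1, 0 ≤ r T)
    (N : ℕ) : (1 + η)⁻¹ * ∫ T in (gg η N)..1, r T ≤
      ∑ l ∈ Finset.range (N + 1), (gg η l - gg η (l + 1)) * r (gg η l) := by
  have h1η : 0 < 1 + η := by linarith
  induction N with
  | zero =>
    simp only [gg_zero, intervalIntegral.integral_same, mul_zero, Finset.range_one,
      Finset.sum_singleton, zero_add]
    refine mul_nonneg ?_ (hr0 1 ⟨one_pos, le_rfl⟩)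
    linarith [gg_le_one hη 1]
  | succ N ih =>
    rw [Finset.sum_range_succ]
    have h1 := int_le_left hr (gg_pos hη (N + 1)) (gg_succ_le hη N) (gg_le_one hη N)
    have i1 : IntervalIntegrable r volume (gg η (N + 1)) (gg η N) :=
      ii_anti hr (gg_pos hη (N + 1)) (gg_succ_le hη N) (gg_le_one hη N)
    have i2 : IntervalIntegrable r volume (gg η N) 1 :=
      ii_anti hr (gg_pos hη N) (gg_le_one hη N) le_rfl
    rw [← intervalIntegral.integral_add_adjacent_intervals i1 i2, mul_add]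
    have e1 := gg_step hη N
    have h2 : (1 + η)⁻¹ * ∫ T in (gg η (N + 1))..(gg η N), r T ≤
        (gg η (N + 1) - gg η (N + 1 + 1)) * r (gg η (N + 1)) := by
      refine (mul_le_mul_of_nonneg_left h1 (inv_pos.2 h1η).le).trans (le_of_eq ?_)
      rw [e1]
      field_simp
    linarith

end grid

/-- **The upper bound of the relative entropy.** -/
theorem kamp_up {K A c a w η e T₂ T₃ R E1 W2 E0 : ℝ} {r : ℝ → ℝ} {N : ℕ} (hA : 0 ≤ A)
    (hc : 0 < c) (hw : 0 < w) (ha : 0 ≤ a) (hη : 0 ≤ η) (hη4 : η ≤ 1 / 4) (he : 0 ≤ e)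
    (hE1 : 0 ≤ E1) (hW2 : 0 ≤ W2)
    (hN : gg η (N + 1) ≤ T₂) (h23 : T₂ ≤ T₃) (h3 : T₃ ≤ 1)
    (hR : rho ((1 - η) * c) ((1 + η) * a + e) ((1 + η) * w) 0 ≤ R)
    (hr : AntitoneOn r (Ioc 0 1)) (hr0 : ∀ T ∈ Ioc (0 : ℝ) 1, 0 ≤ r T)
    (hK : K ≤ A * (∑ l ∈ Finset.range N, (gg η l - gg η (l + 1)) * r (gg η (l + 1)) + E0))
    (h1 : ∀ T ∈ Icc (gg η (N + 1)) T₂,
      r T ≤ rho ((1 - η) * c) ((1 + η) * a + e) ((1 + η) * w) T ^ 2 + E1)
    (h2 : ∀ T ∈ Icc T₂ T₃, r T ≤ W2 / T ^ 2) :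
    K ≤ A * (J c a w + (7 * η * (w * R + c * R ^ 3) + 3 * (η * a + e) * R ^ 2 + 3 * T₂ * E1 +
      2 * (W2 / T₂ + W2 / T₃ ^ 2) + E0)) := by
  have h1η : 0 < 1 + η := by linarith
  have hT0 : 0 < gg η (N + 1) := gg_pos hη _
  have hT2 : 0 < T₂ := hT0.trans_le hN
  have hT3 : 0 < T₃ := hT2.trans_le h23
  have hp : 0 < rho ((1 - η) * c) ((1 + η) * a + e) ((1 + η) * w) 0 :=
    rho_pos (mul_pos (by linarith) hc) (mul_pos h1η hw)
  have hR0 : 0 < R := hp.trans_le hR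
  refine hK.trans (mul_le_mul_of_nonneg_left ?_ hA)
  have k0 := grid_up hη hr hr0 N
  have k1 := up (r := r) (E := fun _ => E1) hc hw ha hη hη4 he hT0 hN (h23.trans h3) hR
    (hr.mono fun u hu => ⟨lt_of_lt_of_le (by positivity) hu.1, hu.2.trans (h23.trans h3)⟩)
    (fun _ _ _ => le_rfl) (fun _ => hE1)
    (fun T hT => ⟨T, ⟨div_le_self (hT0.trans_le hT.1).le (by linarith), le_rfl⟩, h1 T hT⟩)
  have k2 : ∫ _T in (gg η (N + 1) / (1 + η))..T₂, E1 ≤ T₂ * E1 := by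
    rw [intervalIntegral.integral_const, smul_eq_mul]
    refine mul_le_mul_of_nonneg_right ?_ hE1
    have : 0 ≤ gg η (N + 1) / (1 + η) := by positivity
    linarith
  -- the middle part
  have k3 : ∫ T in T₂..T₃, r T ≤ W2 / T₂ := by
    have hd : ∀ T ∈ Set.uIcc T₂ T₃, HasDerivAt (fun T : ℝ => -(W2 / T)) (W2 / T ^ 2) T := by
      intro T hT
      rw [uIcc_of_le h23] at hT
      have hT' : T ≠ 0 := (hT2.trans_le hT.1).ne'
      have h4 := ((hasDerivAt_inv hT').const_mul W2).neg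
      refine (h4.congr_deriv ?_).congr_of_eventuallyEq (Eventually.of_forall fun s => ?_)
      · field_simp
      · simp [div_eq_mul_inv]
    have hci : IntervalIntegrable (fun T : ℝ => W2 / T ^ 2) volume T₂ T₃ := by
      refine ContinuousOn.intervalIntegrable ?_
      rw [uIcc_of_le h23]
      refine continuousOn_const.div (continuousOn_pow 2) fun T hT => ?_
      exact pow_ne_zero 2 (hT2.trans_le hT.1).ne'
    have e1 : ∫ T in T₂..T₃, W2 / T ^ 2 = W2 / T₂ - W2 / T₃ := by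
      rw [intervalIntegral.integral_eq_sub_of_hasDerivAt hd hci]
      ring
    have h5 : ∫ T in T₂..T₃, r T ≤ ∫ T in T₂..T₃, W2 / T ^ 2 :=
      intervalIntegral.integral_mono_on h23 (ii_anti hr hT2 h23 h3) hci fun T hT => h2 T hT
    have h6 : 0 ≤ W2 / T₃ := by positivity
    linarith
  -- the last part
  have k4 : ∫ T in T₃..1, r T ≤ W2 / T₃ ^ 2 := by
    have h5 := int_le_left hr hT3 h3 le_rfl
    have h6 := h2 T₃ ⟨h23, le_rfl⟩
    have h7 := hr0 T₃ ⟨hT3, h3⟩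
    have h8 : (1 - T₃) * r T₃ ≤ 1 * r T₃ := mul_le_mul_of_nonneg_right (by linarith) h7
    linarith
  have i1 : IntervalIntegrable r volume (gg η (N + 1)) T₂ := ii_anti hr hT0 hN (h23.trans h3)
  have i2 : IntervalIntegrable r volume T₂ T₃ := ii_anti hr hT2 h23 h3
  have i3 : IntervalIntegrable r volume T₃ 1 := ii_anti hr hT3 h3 le_rfl
  have e2 : ∫ T in (gg η (N + 1))..1, r T = (∫ T in (gg η (N + 1))..T₂, r T) +
      (∫ T in T₂..T₃, r T) + ∫ T in T₃..1, r T := by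
    rw [intervalIntegral.integral_add_adjacent_intervals i1 i2,
      intervalIntegral.integral_add_adjacent_intervals (i1.trans i2) i3]
  rw [e2] at k0
  have hJ : J c a w ≤ c * R ^ 3 / 3 + w * R := by
    refine J_le hc hw (le_trans ?_ hR)
    exact rho_mono (mul_pos (by linarith) hc) (by nlinarith) hw (by nlinarith) (by nlinarith)
  have hJ0 := J_nonneg c a w
  have hwR : 0 ≤ w * R := by positivity
  have hcR : 0 ≤ c * R ^ 3 := by positivity
  have hG1 : 0 ≤ (η * a + e) * R ^ 2 := by positivity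
  have hG2 : 0 ≤ T₂ * E1 := by positivity
  have hW3 : 0 ≤ W2 / T₂ := by positivity
  have hW4 : 0 ≤ W2 / T₃ ^ 2 := by positivity
  set X := w * R + c * R ^ 3 with hX
  have hX0 : 0 ≤ X := by rw [hX]; positivity
  set G := (η * a + e) * R ^ 2 with hG
  set H := T₂ * E1 with hH
  set W3 := W2 / T₂ with hW3'
  set W4 := W2 / T₃ ^ 2 with hW4'
  have hJX : J c a w ≤ X := by
    rw [hX]
    linarith
  have m1 : (1 + η) * ((∫ T in (gg η (N + 1))..T₂, r T) + (∫ T in T₂..T₃, r T) +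
      ∫ T in T₃..1, r T) ≤ (1 + η) * (J c a w + 4 * η * X + 2 * G + 2 * H + W3 + W4) := by
    refine mul_le_mul_of_nonneg_left ?_ (by linarith)
    have e3 : 2 * (η * a + e) * R ^ 2 = 2 * G := by rw [hG]; ring
    rw [e3] at k1
    linarith
  have m2 : (1 + η) * (J c a w + 4 * η * X + 2 * G + 2 * H + W3 + W4) ≤
      J c a w + 7 * η * X + 3 * G + 3 * H + 2 * (W3 + W4) := by
    have q1 : η * J c a w ≤ η * X := mul_le_mul_of_nonneg_left hJX hη
    have q2 : 0 ≤ η * X := mul_nonneg hη hX0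
    have q3 : η * (η * X) ≤ 1 / 4 * (η * X) := mul_le_mul_of_nonneg_right hη4 q2
    have q4 : η * G ≤ 1 / 4 * G := mul_le_mul_of_nonneg_right hη4 hG1
    have q5 : η * H ≤ 1 / 4 * H := mul_le_mul_of_nonneg_right hη4 hG2
    have q6 : η * W3 ≤ 1 / 4 * W3 := mul_le_mul_of_nonneg_right hη4 hW3
    have q7 : η * W4 ≤ 1 / 4 * W4 := mul_le_mul_of_nonneg_right hη4 hW4
    nlinarith
  have e4 : 7 * η * (w * R + c * R ^ 3) = 7 * η * X := by rw [hX]
  have e5 : 3 * (η * a + e) * R ^ 2 = 3 * G := by rw [hG]; ring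
  have e6 : 3 * T₂ * E1 = 3 * H := by rw [hH]; ring
  rw [e5, e6]
  linarith

/-- **The lower bound of the relative entropy.** -/
theorem kamp_low {K A c a w η e T₂ R E1 E0 : ℝ} {r : ℝ → ℝ} {N : ℕ} (hA : 0 ≤ A)
    (hc : 0 < c) (hw : 0 < w) (ha : 0 ≤ a) (hη : 0 ≤ η) (hη4 : η ≤ 1 / 4) (he : 0 ≤ e)
    (hE1 : 0 ≤ E1) (hN : gg η N ≤ T₂) (hT2 : (1 + η) * T₂ ≤ 1) (haT : a < T₂)
    (hR : rho c a w 0 ≤ R)
    (hr : AntitoneOn r (Ioc 0 1)) (hr0 : ∀ T ∈ Ioc (0 : ℝ) 1, 0 ≤ r T)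
    (hK : A * (∑ l ∈ Finset.range (N + 1), (gg η l - gg η (l + 1)) * r (gg η l) - E0) ≤ K)
    (h1 : ∀ T ∈ Icc (gg η N) T₂,
      rho ((1 + η) * c) ((1 - η) * a - e) ((1 - η) * w) T ^ 2 - E1 ≤ r T) :
    A * (J c a w - (5 * η * (w * R + c * R ^ 3) + 2 * (η * a + e) * R ^ 2 +
      2 * gg η N * R ^ 2 + 2 * w ^ 2 / (T₂ - a) + T₂ * E1 + E0)) ≤ K := by
  have h1η : 0 < 1 + η := by linarith
  have hT0 : 0 < gg η N := gg_pos hη _
  have hT20 : 0 < T₂ := hT0.trans_le hN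
  have hT21 : T₂ ≤ 1 := by nlinarith
  have hp : 0 < rho c a w 0 := rho_pos hc hw
  have hR0 : 0 < R := hp.trans_le hR
  refine le_trans (mul_le_mul_of_nonneg_left ?_ hA) hK
  have k0 := grid_low hη hr hr0 N
  have k1 := low (r := r) (E := fun _ => E1) hc hw ha hη hη4 he hT0 hN hT2 haT hR
    (hr.mono fun u hu => ⟨hT0.trans_le hu.1, hu.2.trans hT2⟩)
    (fun _ _ _ => le_rfl)
    (fun T hT => ⟨T, ⟨le_rfl, le_mul_of_one_le_left (hT0.trans_le hT.1).le (by linarith)⟩,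
      h1 T hT⟩)
  have k2 : ∫ _T in (gg η N)..T₂, E1 ≤ T₂ * E1 := by
    rw [intervalIntegral.integral_const, smul_eq_mul]
    exact mul_le_mul_of_nonneg_right (by linarith) hE1
  have i1 : IntervalIntegrable r volume (gg η N) T₂ := ii_anti hr hT0 hN hT21
  have i2 : IntervalIntegrable r volume T₂ 1 := ii_anti hr hT20 hT21 le_rfl
  have k3 : ∫ T in (gg η N)..T₂, r T ≤ ∫ T in (gg η N)..1, r T := by
    rw [← intervalIntegral.integral_add_adjacent_intervals i1 i2]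
    have : 0 ≤ ∫ T in T₂..1, r T :=
      intervalIntegral.integral_nonneg hT21 fun T hT => hr0 T ⟨hT20.trans_le hT.1, hT.2⟩
    linarith
  have hJ : J c a w ≤ c * R ^ 3 / 3 + w * R := J_le hc hw hR
  have hJ0 := J_nonneg c a w
  have hwR : 0 ≤ w * R := by positivity
  have hcR : 0 ≤ c * R ^ 3 := by positivity
  set X := w * R + c * R ^ 3 with hX
  set Y := 2 * (η * a + e) * R ^ 2 + 2 * gg η N * R ^ 2 + 2 * w ^ 2 / (T₂ - a) + T₂ * E1 with hY
  have hY0 : 0 ≤ Y := by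
    have : 0 < T₂ - a := by linarith
    rw [hY]
    positivity
  have m1 : J c a w - 4 * η * X - Y ≤ ∫ T in (gg η N)..1, r T := by
    rw [hY]
    linarith
  have m2 : (1 + η)⁻¹ * (J c a w - 4 * η * X - Y) ≤ (1 + η)⁻¹ * ∫ T in (gg η N)..1, r T :=
    mul_le_mul_of_nonneg_left m1 (inv_pos.2 h1η).le
  have hJX : J c a w ≤ X := by
    rw [hX]
    linarith
  have hX0 : 0 ≤ X := by rw [hX]; positivity
  have m3 : J c a w - 5 * η * X - Y ≤ (1 + η)⁻¹ * (J c a w - 4 * η * X - Y) := by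
    rw [inv_mul_eq_div, le_div_iff₀ h1η]
    have q1 : η * J c a w ≤ η * X := mul_le_mul_of_nonneg_left hJX hη
    have q2 : 0 ≤ η * X := mul_nonneg hη hX0
    have q3 : 0 ≤ η * (η * X) := mul_nonneg hη q2
    have q4 : 0 ≤ η * Y := mul_nonneg hη hY0
    nlinarith
  have e1 : J c a w - (5 * η * (w * R + c * R ^ 3) + 2 * (η * a + e) * R ^ 2 +
      2 * gg η N * R ^ 2 + 2 * w ^ 2 / (T₂ - a) + T₂ * E1 + E0) =
      J c a w - 5 * η * X - Y - E0 := by
    rw [hX, hY]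
    ring
  rw [e1]
  linarith

end Vale.Agent.P146.H418
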