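import Vale.Agent.P146.H418.StageG
import Vale.Agent.P146.H529.Par2

/-!
# P146: the numbers of a stage from KAMP and the start

`stage_A`, `stage_B`: with the links of helper529 at the numbers of the list, `KampUp`, `KampLow`
for the amplitude law and the start give everything in `H178.Top.Stage`.
-/

open MeasureTheory Set Filter Topology

namespace Vale.Agent.P146.H418

open Vale.Agent.P146.H178
open Vale.Agent.P146.H529 (Kam sA sB sC lA hA)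

variable {β b₁ : ℝ}

/-- the numbers of a stage from KAMP and the start: first choice -/
theorem stage_A {a0 q0 : ℝ} (hβ : 0 < β) (ha0 : a0 ≤ 1 / 6) (hq0 : 0 < q0)
    (hU : ∀ q, 0 < q → q ≤ q0 → KampUp β b₁ (1 / 6 - a0 + 1000 * q) (q / 2) (10 * q) (11 * q)
      (24 * q) q (Kam β (sA q) (lA q) (hA q)))
    (hL : ∀ q, 0 < q → q ≤ q0 → KampLow β b₁ (1 / 6 - a0 + 1000 * q) (q / 2) (10 * q) (11 * q)
      (24 * q) q (Kam β (sA q) (lA q) (hA q)))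
    (hS : ∀ q, 0 < q → q ≤ q0 → StartH β b₁ (23 * q) (10 * q) (24 * q)
      (fun n => H9.Phn n β)) :
    ∀ e : ℝ, 0 < e → ∃ (K : ℕ → ℝ → ℝ → ℝ → ℝ) (s s' d0 d : ℝ), 0 < s ∧ s < s' ∧ 0 < d0 ∧
      d0 < d ∧ s' + d ≤ e ∧ 2 * s' < d ∧ StartH β b₁ d0 s d (fun n => H9.Phn n β) ∧
      ∃ s0 c ch g w : ℝ, 0 < s0 ∧ 0 < c ∧ 0 < ch ∧ 2 * d + s0 - s < ch ∧ d + s' < g ∧
        s0 + d < w ∧ LinkUp β (1 / 6 - a0 + e) ch g w d K ∧ LinkDn β (1 / 6 - a0 + e) ch g w d K ∧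
        KampUp β b₁ (1 / 6 - a0 + e) s0 s s' d c K ∧
        KampLow β b₁ (1 / 6 - a0 + e) s0 s s' d c K :=
  stage_of hq0 (Ka := fun q => Kam β (sA q) (lA q) (hA q))
    (fun q h1 _ => H529.linkUp_one hβ h1 (by linarith) (by linarith) (by linarith) (by linarith))
    (fun q h1 _ => H529.linkDn_one hβ h1 (by linarith) (by linarith) (by linarith) (by linarith))
    hU hL hS

/-- the numbers of a stage from KAMP and the start: second choice -/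
theorem stage_B {a0 q0 : ℝ} (hβ : 0 < β) (ha0 : a0 ≤ 1 / 6) (hq0 : 0 < q0)
    (hU : ∀ q, 0 < q → q ≤ q0 → KampUp β b₁ (1 / 6 - a0 + 1000 * q) (q / 2) (10 * q) (11 * q)
      (24 * q) q (Kam β (sB q) (lA q) (hA q)))
    (hL : ∀ q, 0 < q → q ≤ q0 → KampLow β b₁ (1 / 6 - a0 + 1000 * q) (q / 2) (10 * q) (11 * q)
      (24 * q) q (Kam β (sB q) (lA q) (hA q)))
    (hS : ∀ q, 0 < q → q ≤ q0 → StartH β b₁ (23 * q) (10 * q) (24 * q)
      (fun n => H9.Phn n β)) :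
    ∀ e : ℝ, 0 < e → ∃ (K : ℕ → ℝ → ℝ → ℝ → ℝ) (s s' d0 d : ℝ), 0 < s ∧ s < s' ∧ 0 < d0 ∧
      d0 < d ∧ s' + d ≤ e ∧ 2 * s' < d ∧ StartH β b₁ d0 s d (fun n => H9.Phn n β) ∧
      ∃ s0 c ch g w : ℝ, 0 < s0 ∧ 0 < c ∧ 0 < ch ∧ 2 * d + s0 - s < ch ∧ d + s' < g ∧
        s0 + d < w ∧ LinkUp β (1 / 6 - a0 + e) ch g w d K ∧ LinkDn β (1 / 6 - a0 + e) ch g w d K ∧
        KampUp β b₁ (1 / 6 - a0 + e) s0 s s' d c K ∧
        KampLow β b₁ (1 / 6 - a0 + e) s0 s s' d c K :=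
  stage_of hq0 (Ka := fun q => Kam β (sC q) (lA q) (hA q))
    (fun q h1 _ => H529.linkUp_two hβ h1 (by linarith) (by linarith) (by linarith))
    (fun q h1 _ => H529.linkDn_two hβ h1 (by linarith) (by linarith) (by linarith))
    (fun q h1 h2 => H529.kampUp_cut (by linarith) (hU q h1 h2))
    (fun q h1 h2 => H529.kampLow_cut (by linarith) (hL q h1 h2)) hS

end Vale.Agent.P146.H418
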