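import Vale.Agent.P146.H418.LinkLit
import Vale.Agent.P146.H178.Top
import Vale.Agent.P146.H620.KampLow
import Vale.Agent.P146.H470.LowB

/-!
# P146: the response from `KampUp` and the start

`resp_A` (exponents up to `1/7`), `resp_B` (exponents up to `1/6`): `KampUp` for the amplitude law
and the start for all small `q` give `RespQ`, the input of `H178.mainQ`.
-/

open MeasureTheory Set Filter Topology

namespace Vale.Agent.P146.H418

open Vale.Agent.P146.H178
open Vale.Agent.P146.H529 (Kam sA sB sC lA hA)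

variable {β b₁ : ℝ}

/-- the lower half of the formula at both stages -/
theorem low_A {a0 q : ℝ} (hβ : 1 < β) (hq : 0 < q) (ha0 : a0 ≤ 1 / 7) (hb₁ : 100 * q < b₁) :
    KampLow β b₁ (1 / 6 - a0 + 1000 * q) (q / 2) (10 * q) (11 * q) (24 * q) q
      (Kam β (sA q) (lA q) (hA q)) :=
  H470.kampLow_one (by linarith) hq ha0 hb₁ le_rfl
    (fun A hA => H620.Low.row_low hq (by linarith) hA (by linarith) hb₁)

theorem low_B {a0 q : ℝ} (hβ : 1 < β) (hq : 0 < q) (ha0 : a0 ≤ 1 / 6) (hb₁ : 100 * q < b₁) :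
    KampLow β b₁ (1 / 6 - a0 + 1000 * q) (q / 2) (10 * q) (11 * q) (24 * q) q
      (Kam β (sB q) (lA q) (hA q)) :=
  H470.kampLow_two (by linarith) hq ha0 hb₁ le_rfl
    (fun A hA => H620.Low.row_low hq (by linarith) hA ha0 hb₁)

/-- **The response for `x ≥ n^(-a0+e)`, `a0 ≤ 1/7`**, from the upper half and the start. -/
theorem resp_A {a0 q0 : ℝ} (hβ : 1 < β) (ha0 : a0 ≤ 1 / 7) (hb₁ : 0 < b₁) (hq0 : 0 < q0)
    (hU : ∀ q, 0 < q → q ≤ q0 → KampUp β b₁ (1 / 6 - a0 + 1000 * q) (q / 2) (10 * q) (11 * q)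
      (24 * q) q (Kam β (sA q) (lA q) (hA q)))
    (hS : ∀ q, 0 < q → q ≤ q0 → StartH β b₁ (23 * q) (10 * q) (24 * q)
      (fun n => H9.Phn n β)) : RespQ a0 b₁ (H877.At β) := by
  have hm : 0 < min q0 (b₁ / 200) := lt_min hq0 (by linarith)
  refine respQ_of_flowIn (by linarith) hβ hb₁ (flowIn_of_stage (by linarith) hβ hb₁ fun e he => ?_)
  obtain ⟨K, s, s', d0, d, h1, h2, h3, h4, h5, h6, h7, h8⟩ :=
    stage_A (a0 := a0) (q0 := min q0 (b₁ / 200)) (by linarith) (by linarith) hm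
      (fun q hq hqq => hU q hq (hqq.trans (min_le_left _ _)))
      (fun q hq hqq => low_A hβ hq ha0 (by linarith [hqq.trans (min_le_right q0 (b₁ / 200))]))
      (fun q hq hqq => hS q hq (hqq.trans (min_le_left _ _))) e he
  exact ⟨K, s, s', d0, d, h1, h2, h3, h4, h5, h6, h7, h8⟩

/-- **The response for `x ≥ n^(-a0+e)`, `a0 ≤ 1/6`**, from the upper half and the start. -/
theorem resp_B {a0 q0 : ℝ} (hβ : 1 < β) (ha0 : a0 ≤ 1 / 6) (hb₁ : 0 < b₁) (hq0 : 0 < q0)
    (hU : ∀ q, 0 < q → q ≤ q0 → KampUp β b₁ (1 / 6 - a0 + 1000 * q) (q / 2) (10 * q) (11 * q)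
      (24 * q) q (Kam β (sB q) (lA q) (hA q)))
    (hS : ∀ q, 0 < q → q ≤ q0 → StartH β b₁ (23 * q) (10 * q) (24 * q)
      (fun n => H9.Phn n β)) : RespQ a0 b₁ (H877.At β) := by
  have hm : 0 < min q0 (b₁ / 200) := lt_min hq0 (by linarith)
  refine respQ_of_flowIn (by linarith) hβ hb₁ (flowIn_of_stage (by linarith) hβ hb₁ fun e he => ?_)
  obtain ⟨K, s, s', d0, d, h1, h2, h3, h4, h5, h6, h7, h8⟩ :=
    stage_B (a0 := a0) (q0 := min q0 (b₁ / 200)) (by linarith) (by linarith) hm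
      (fun q hq hqq => hU q hq (hqq.trans (min_le_left _ _)))
      (fun q hq hqq => low_B hβ hq ha0 (by linarith [hqq.trans (min_le_right q0 (b₁ / 200))]))
      (fun q hq hqq => hS q hq (hqq.trans (min_le_left _ _))) e he
  exact ⟨K, s, s', d0, d, h1, h2, h3, h4, h5, h6, h7, h8⟩

end Vale.Agent.P146.H418
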