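import Vale.Agent.P146.H178.FlowH

/-!
# P146: the flow in the exponent together with a second family of bounds

As `H178.flowH`; a predicate `P` (the upper bound of the entropy) is carried along with the
barrier: in the step at `x` both are known at all larger exponents.
-/

open Set Filter Topology

namespace Vale.Agent.P146.H418

open Vale.Agent.P146.H122

/-- **The joint flow.** `good z` is the barrier at `z` together with `P z`. -/
theorem flowJ {Φ K : ℝ → ℝ → ℝ} {L L' V w : ℝ → ℝ} {P : ℝ → Prop} {c x0 y1 ρ η : ℝ}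
    (hx0 : 0 < x0) (hρ : 1 < ρ) (hη : 0 < η) (hc : 0 < c)
    (cv : ∀ x ∈ Icc x0 y1, ConcaveOn ℝ (Ici 0) (Φ x))
    (dx : ∀ x ∈ Icc x0 y1, ∀ v, 0 ≤ v → HasDerivAt (fun y => Φ y v) (K x v / x ^ 2) x)
    (hL : ∀ x ∈ Icc x0 y1, HasDerivAt L (L' x) x) (hL0 : ∀ x ∈ Icc x0 y1, 0 < L x)
    (hV : MonotoneOn V (Icc x0 y1)) (hw : MonotoneOn w (Icc x0 y1))
    (hw0 : ∀ x ∈ Icc x0 y1, 0 ≤ w x) (hwV : ∀ x ∈ Icc x0 y1, w x < V x)
    (hE : ∀ x ∈ Icc x0 y1, ∀ y ∈ Icc x0 y1, x ≤ y → y ≤ ρ * x →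
      (∀ z ∈ Icc y y1, 1 + L z ≤ c * sec (Φ z) (w z) (V z) ∧ P z) →
      1 + (1 - η) * L x ≤ c * sec (Φ x) (w y) (V y) → c * sec (Φ x) (w y) (V y) ≤ 1 + L x →
      c * ((K x (V y) - K x (w y)) / (V y - w y)) / x ^ 2 ≤ L' x)
    (hP : ∀ x ∈ Icc x0 y1, ∀ y ∈ Icc x0 y1, x ≤ y → y ≤ ρ * x →
      (∀ z ∈ Icc y y1, 1 + L z ≤ c * sec (Φ z) (w z) (V z) ∧ P z) →
      1 + L x ≤ c * sec (Φ x) (w x) (V x) → P x)
    (start : 1 + L y1 ≤ c * sec (Φ y1) (w y1) (V y1)) (startP : P y1) :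
    ∀ x ∈ Icc x0 y1, 1 + L x ≤ c * sec (Φ x) (w x) (V x) ∧ P x := by
  -- one block
  have block : ∀ x ∈ Icc x0 y1, ∀ y ∈ Icc x0 y1, x ≤ y → y ≤ ρ * x →
      (∀ z ∈ Icc y y1, 1 + L z ≤ c * sec (Φ z) (w z) (V z) ∧ P z) →
      1 + L x ≤ c * sec (Φ x) (w x) (V x) := by
    intro x hx y hy hxy hyx hist
    have hs := (hist y ⟨le_rfl, hy.2⟩).1
    have hsub : Icc x y ⊆ Icc x0 y1 := Icc_subset_Icc hx.1 hy.2
    have hwVy := hwV y hy
    have hwy := hw0 y hy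
    have h1 := barrier (α := fun z => c * sec (Φ z) (w y) (V y) - 1) (L := L)
      (α' := fun z => c * ((K z (V y) - K z (w y)) / (V y - w y)) / z ^ 2) (L' := L') hxy hη
      ?_ (fun z hz => hL z (hsub hz)) (fun z hz => hL0 z (hsub hz)) ?_ (by linarith)
    · have h2 : sec (Φ x) (w y) (V y) ≤ sec (Φ x) (w x) (V x) :=
        sec_anti (cv x hx) (hw0 x hx) (hw hx hy hxy) (hV hx hy hxy) (hwV x hx) hwVy
      have h3 := mul_le_mul_of_nonneg_left h2 hc.le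
      linarith
    · intro z hz
      have d1 := dx z (hsub hz) (V y) (hwy.trans hwVy.le)
      have d2 := dx z (hsub hz) (w y) hwy
      have d3 := ((d1.sub d2).div_const (V y - w y)).const_mul c
      have d4 := d3.sub_const 1
      have e : c * ((K z (V y) / z ^ 2 - K z (w y) / z ^ 2) / (V y - w y)) =
          c * ((K z (V y) - K z (w y)) / (V y - w y)) / z ^ 2 := by ring
      rw [e] at d4
      exact d4
    · intro z hz h1 h2
      have hzy : y ≤ ρ * z := hyx.trans (mul_le_mul_of_nonneg_left hz.1 (by linarith))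
      exact hE z (hsub hz) y hy hz.2 hzy hist (by linarith) (by linarith)
  -- induction on the number of blocks
  have hρ0 : 0 < ρ := by linarith
  have key : ∀ k : ℕ, ∀ x ∈ Icc x0 y1, y1 ≤ ρ ^ k * x →
      1 + L x ≤ c * sec (Φ x) (w x) (V x) ∧ P x := by
    intro k
    induction k with
    | zero =>
      intro x hx h
      rw [pow_zero, one_mul] at h
      have : x = y1 := le_antisymm hx.2 h
      rw [this]
      exact ⟨start, startP⟩
    | succ k ih =>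
      intro x hx h
      obtain ⟨y, hy⟩ : ∃ y, y = min (ρ * x) y1 := ⟨_, rfl⟩
      have hxp : 0 < x := lt_of_lt_of_le hx0 hx.1
      have hyx : y ≤ ρ * x := by rw [hy]; exact min_le_left _ _
      have hxy : x ≤ y := by
        rw [hy]
        exact le_min (by nlinarith) hx.2
      have hyI : y ∈ Icc x0 y1 := ⟨hx.1.trans hxy, by rw [hy]; exact min_le_right _ _⟩
      have hyk : y1 ≤ ρ ^ k * y := by
        rw [hy]
        rcases le_total (ρ * x) y1 with h1 | h1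
        · rw [min_eq_left h1]
          calc y1 ≤ ρ ^ (k + 1) * x := h
            _ = ρ ^ k * (ρ * x) := by ring
        · rw [min_eq_right h1]
          have h2 : 1 ≤ ρ ^ k := one_le_pow₀ hρ.le
          have h3 : 0 ≤ y1 := hxp.le.trans hx.2
          nlinarith
      have hist : ∀ z ∈ Icc y y1, 1 + L z ≤ c * sec (Φ z) (w z) (V z) ∧ P z := fun z hz =>
        ih z ⟨hyI.1.trans hz.1, hz.2⟩
          (hyk.trans (mul_le_mul_of_nonneg_left hz.1 (by positivity)))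
      have h1 := block x hx y hyI hxy hyx hist
      exact ⟨h1, hP x hx y hyI hxy hyx hist h1⟩
  intro x hx
  have hxp : 0 < x := lt_of_lt_of_le hx0 hx.1
  obtain ⟨k, hk⟩ := pow_unbounded_of_one_lt (y1 / x) hρ
  exact key k x hx (by rw [div_lt_iff₀ hxp] at hk; exact hk.le)

/-- **The joint flow with a power as lower bound.** -/
theorem flow_powJ {Φ K : ℝ → ℝ → ℝ} {V w : ℝ → ℝ} {P : ℝ → Prop} {c x0 y1 ρ η ℓ C : ℝ}
    (hx0 : 0 < x0) (hρ : 1 < ρ) (hη : 0 < η) (hc : 0 < c) (hℓ : 0 < ℓ)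
    (cv : ∀ x ∈ Icc x0 y1, ConcaveOn ℝ (Ici 0) (Φ x))
    (dx : ∀ x ∈ Icc x0 y1, ∀ v, 0 ≤ v → HasDerivAt (fun y => Φ y v) (K x v / x ^ 2) x)
    (hV : MonotoneOn V (Icc x0 y1)) (hw : MonotoneOn w (Icc x0 y1))
    (hw0 : ∀ x ∈ Icc x0 y1, 0 ≤ w x) (hwV : ∀ x ∈ Icc x0 y1, w x < V x)
    (hE : ∀ x ∈ Icc x0 y1, ∀ y ∈ Icc x0 y1, x ≤ y → y ≤ ρ * x →
      (∀ z ∈ Icc y y1, 1 + ℓ * z ^ C ≤ c * sec (Φ z) (w z) (V z) ∧ P z) →
      1 + (1 - η) * (ℓ * x ^ C) ≤ c * sec (Φ x) (w y) (V y) →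
      c * sec (Φ x) (w y) (V y) ≤ 1 + ℓ * x ^ C →
      c * (K x (V y) - K x (w y)) ≤ C * (ℓ * x ^ C) * x * (V y - w y))
    (hP : ∀ x ∈ Icc x0 y1, ∀ y ∈ Icc x0 y1, x ≤ y → y ≤ ρ * x →
      (∀ z ∈ Icc y y1, 1 + ℓ * z ^ C ≤ c * sec (Φ z) (w z) (V z) ∧ P z) →
      1 + ℓ * x ^ C ≤ c * sec (Φ x) (w x) (V x) → P x)
    (start : 1 + ℓ * y1 ^ C ≤ c * sec (Φ y1) (w y1) (V y1)) (startP : P y1) :
    ∀ x ∈ Icc x0 y1, 1 + ℓ * x ^ C ≤ c * sec (Φ x) (w x) (V x) ∧ P x := by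
  refine flowJ (L := fun x => ℓ * x ^ C) (L' := fun x => ℓ * (C * x ^ (C - 1))) hx0 hρ hη hc cv dx
    (fun x hx => ?_) (fun x hx => ?_) hV hw hw0 hwV (fun x hx y hy h1 h2 h0 h3 h4 => ?_) hP start
    startP
  · have hxp : x ≠ 0 := (lt_of_lt_of_le hx0 hx.1).ne'
    exact (Real.hasDerivAt_rpow_const (Or.inl hxp)).const_mul ℓ
  · have hxp : 0 < x := lt_of_lt_of_le hx0 hx.1
    positivity
  · have hxp : 0 < x := lt_of_lt_of_le hx0 hx.1
    have h5 := hE x hx y hy h1 h2 h0 h3 h4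
    have h6 : 0 < V y - w y := by linarith [hwV y hy]
    rw [div_le_iff₀ (by positivity), mul_div_assoc', div_le_iff₀ h6]
    refine h5.trans (le_of_eq ?_)
    have e : x ^ (C - 1) * x ^ 2 = x ^ C * x := by
      rw [Real.rpow_sub_one hxp.ne']
      field_simp
    calc C * (ℓ * x ^ C) * x * (V y - w y) = C * ℓ * (x ^ C * x) * (V y - w y) := by ring
      _ = C * ℓ * (x ^ (C - 1) * x ^ 2) * (V y - w y) := by rw [e]
      _ = _ := by ring

end Vale.Agent.P146.H418
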