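import Vale.Agent.P146.H178.KDiff
import Vale.Agent.P146.H418.Par

/-!
# P146: the numbers of the last stage

From the inputs for every small unit `q` (all exponents are multiples of `q`) the conditions of
`H178.Top.Stage` for every `e > 0`.
-/

open MeasureTheory Set Filter Topology

namespace Vale.Agent.P146.H418

open Vale.Agent.P146.H178

variable {β b₁ e e' s0 s s' d c ch g w : ℝ} {Ka : ℕ → ℝ → ℝ → ℝ → ℝ}

lemma ev_exp (h : e ≤ e') : ∀ᶠ n : ℕ in atTop, ∀ A y : ℝ,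
    (n : ℝ) ^ (-(1 / 6) + e') ≤ A * y → (n : ℝ) ^ (-(1 / 6) + e) ≤ A * y := by
  filter_upwards [eventually_ge_atTop 1] with n hn A y hy
  have hn1 : (1 : ℝ) ≤ n := by exact_mod_cast hn
  exact (Real.rpow_le_rpow_of_exponent_le hn1 (by linarith)).trans hy

lemma kampUp_mono (h : e ≤ e') (hK : KampUp β b₁ e s0 s s' d c Ka) :
    KampUp β b₁ e' s0 s s' d c Ka := by
  intro A hA
  filter_upwards [hK A hA, ev_exp h] with n h1 h2
  intro y hy
  exact h1 y (h2 A y hy)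

lemma kampLow_mono (h : e ≤ e') (hK : KampLow β b₁ e s0 s s' d c Ka) :
    KampLow β b₁ e' s0 s s' d c Ka := by
  intro A hA
  filter_upwards [hK A hA, ev_exp h] with n h1 h2
  intro y hy
  exact h1 y (h2 A y hy)

lemma linkUp_mono (h : e ≤ e') (hK : LinkUp β e ch g w d Ka) : LinkUp β e' ch g w d Ka := by
  intro A hA
  filter_upwards [hK A hA, ev_exp h] with n h1 h2
  intro y hy
  exact h1 y (h2 A y hy)

lemma linkDn_mono (h : e ≤ e') (hK : LinkDn β e ch g w d Ka) : LinkDn β e' ch g w d Ka := by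
  intro A hA
  filter_upwards [hK A hA, ev_exp h] with n h1 h2
  intro y hy
  exact h1 y (h2 A y hy)

/-- **The stage from the inputs at every small unit.** `a0` is the end exponent. -/
theorem stage_of {a0 q0 : ℝ} (hq0 : 0 < q0) {Ka : ℝ → ℕ → ℝ → ℝ → ℝ → ℝ}
    (hLU : ∀ q, 0 < q → q ≤ q0 → LinkUp β (1 / 6 - a0 + 1000 * q) (45 * q) (36 * q) (25 * q)
      (24 * q) (Ka q))
    (hLD : ∀ q, 0 < q → q ≤ q0 → LinkDn β (1 / 6 - a0 + 1000 * q) (45 * q) (36 * q) (25 * q)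
      (24 * q) (Ka q))
    (hU : ∀ q, 0 < q → q ≤ q0 → KampUp β b₁ (1 / 6 - a0 + 1000 * q) (q / 2) (10 * q) (11 * q)
      (24 * q) q (Ka q))
    (hL : ∀ q, 0 < q → q ≤ q0 → KampLow β b₁ (1 / 6 - a0 + 1000 * q) (q / 2) (10 * q) (11 * q)
      (24 * q) q (Ka q))
    (hS : ∀ q, 0 < q → q ≤ q0 → StartH β b₁ (23 * q) (10 * q) (24 * q)
      (fun n => H9.Phn n β)) :
    ∀ e : ℝ, 0 < e → ∃ (K : ℕ → ℝ → ℝ → ℝ → ℝ) (s s' d0 d : ℝ), 0 < s ∧ s < s' ∧ 0 < d0 ∧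
      d0 < d ∧ s' + d ≤ e ∧ 2 * s' < d ∧ StartH β b₁ d0 s d (fun n => H9.Phn n β) ∧
      ∃ s0 c ch g w : ℝ, 0 < s0 ∧ 0 < c ∧ 0 < ch ∧ 2 * d + s0 - s < ch ∧ d + s' < g ∧
        s0 + d < w ∧ LinkUp β (1 / 6 - a0 + e) ch g w d K ∧ LinkDn β (1 / 6 - a0 + e) ch g w d K ∧
        KampUp β b₁ (1 / 6 - a0 + e) s0 s s' d c K ∧
        KampLow β b₁ (1 / 6 - a0 + e) s0 s s' d c K := by
  intro e he
  obtain ⟨q, hq⟩ : ∃ q, q = min q0 (e / 1000) := ⟨_, rfl⟩
  have h1 : 0 < q := by rw [hq]; exact lt_min hq0 (by linarith)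
  have h2 : q ≤ q0 := by rw [hq]; exact min_le_left _ _
  have h3 : q ≤ e / 1000 := by rw [hq]; exact min_le_right _ _
  have h4 : 1 / 6 - a0 + 1000 * q ≤ 1 / 6 - a0 + e := by linarith
  exact ⟨Ka q, 10 * q, 11 * q, 23 * q, 24 * q, by linarith, by linarith, by linarith, by linarith,
    by linarith, by linarith, hS q h1 h2, q / 2, q, 45 * q, 36 * q, 25 * q, by linarith, h1,
    by linarith, by linarith, by linarith, by linarith, linkUp_mono h4 (hLU q h1 h2),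
    linkDn_mono h4 (hLD q h1 h2), kampUp_mono h4 (hU q h1 h2), kampLow_mono h4 (hL q h1 h2)⟩

end Vale.Agent.P146.H418
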