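import Mathlib

/-!
Joint choice of a typical parameter: one real parameter `r` in a window (share) and one element
`m` of a finite set (number of hidden sites), such that finitely many nonnegative functions with
bounded integral in `r` (for every `m`) and finitely many nonnegative functions with bounded sum
in `m` (for every `r`) are all of the size of their mean.
-/

open MeasureTheory

namespace Vale.Agent.P146.H418

/-- counting form of the Markov inequality -/
lemma card_bad {ι : Type*} (M : Finset ι) {a : ι → ℝ} (ha : ∀ m ∈ M, 0 ≤ a m) {b k : ℝ}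
    (_hk : 0 < k) (hb : 0 ≤ b) (h : ∑ m ∈ M, a m ≤ M.card * b) :
    k * ((M.filter fun m => k * b < a m).card : ℝ) ≤ M.card := by
  classical
  rcases hb.eq_or_lt with hb | hb
  · have h0 : ∀ m ∈ M, a m = 0 := by
      have h1 : ∑ m ∈ M, a m = 0 := by
        refine le_antisymm ?_ (Finset.sum_nonneg ha)
        rw [← hb, mul_zero] at h
        exact h
      exact (Finset.sum_eq_zero_iff_of_nonneg ha).1 h1
    have h2 : (M.filter fun m => k * b < a m) = ∅ := by
      refine Finset.filter_eq_empty_iff.2 fun m hm => ?_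
      rw [h0 m hm, ← hb, mul_zero]
      exact lt_irrefl _
    rw [h2]
    simp
  · have h1 : ((M.filter fun m => k * b < a m).card : ℝ) * (k * b) ≤ ∑ m ∈ M, a m := by
      calc ((M.filter fun m => k * b < a m).card : ℝ) * (k * b)
          = ∑ _m ∈ M.filter (fun m => k * b < a m), k * b := by
            rw [Finset.sum_const, nsmul_eq_mul]
        _ ≤ ∑ m ∈ M.filter (fun m => k * b < a m), a m :=
            Finset.sum_le_sum fun m hm => (Finset.mem_filter.1 hm).2.le
        _ ≤ ∑ m ∈ M, a m :=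
            Finset.sum_le_sum_of_subset_of_nonneg (Finset.filter_subset _ _)
              fun m hm _ => ha m hm
    have h2 : k * ((M.filter fun m => k * b < a m).card : ℝ) * b ≤ M.card * b := by
      calc k * ((M.filter fun m => k * b < a m).card : ℝ) * b
          = ((M.filter fun m => k * b < a m).card : ℝ) * (k * b) := by ring
        _ ≤ _ := h1.trans h
    exact le_of_mul_le_mul_right h2 hb

/-- one element of `M` is typical for two functions -/
lemma exists_two {ι : Type*} (M : Finset ι) (hM : M.Nonempty) {a c : ι → ℝ}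
    (ha : ∀ m ∈ M, 0 ≤ a m) (hc : ∀ m ∈ M, 0 ≤ c m) {b d : ℝ} (hb : 0 ≤ b) (hd : 0 ≤ d)
    (h1 : ∑ m ∈ M, a m ≤ M.card * b) (h2 : ∑ m ∈ M, c m ≤ M.card * d) :
    ∃ m ∈ M, a m ≤ 3 * b ∧ c m ≤ 3 * d := by
  classical
  by_contra hcon
  push Not at hcon
  have e1 := card_bad M ha (k := 3) (by norm_num) hb h1
  have e2 := card_bad M hc (k := 3) (by norm_num) hd h2
  have hsub : M ⊆ (M.filter fun m => 3 * b < a m) ∪ (M.filter fun m => 3 * d < c m) := by
    intro m hm
    rw [Finset.mem_union, Finset.mem_filter, Finset.mem_filter]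
    by_cases h : a m ≤ 3 * b
    · exact Or.inr ⟨hm, hcon m hm h⟩
    · exact Or.inl ⟨hm, not_le.1 h⟩
  have h3 : (M.card : ℝ) ≤ ((M.filter fun m => 3 * b < a m).card : ℝ) +
      ((M.filter fun m => 3 * d < c m).card : ℝ) := by
    exact_mod_cast (Finset.card_le_card hsub).trans (Finset.card_union_le _ _)
  have h4 : (0 : ℝ) < M.card := by exact_mod_cast hM.card_pos
  linarith

/-- joint typical point, one function of each kind -/
theorem typ₁ {ι : Type*} (M : Finset ι) (hM : M.Nonempty) {r0 r1 : ℝ} (hr : r0 < r1)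
    {f g : ℝ → ι → ℝ} {B C : ℝ}
    (hf : ∀ r ∈ Set.Icc r0 r1, ∀ m ∈ M, 0 ≤ f r m) (hg : ∀ r ∈ Set.Icc r0 r1, ∀ m ∈ M, 0 ≤ g r m)
    (hi : ∀ m ∈ M, IntervalIntegrable (fun r => f r m) volume r0 r1)
    (hB : ∀ m ∈ M, ∫ r in r0..r1, f r m ≤ B)
    (hC : ∀ r ∈ Set.Icc r0 r1, ∑ m ∈ M, g r m ≤ C) :
    ∃ r ∈ Set.Icc r0 r1, ∃ m ∈ M, f r m ≤ 3 * (B / (r1 - r0)) ∧ g r m ≤ 3 * (C / M.card) := by
  have hl : 0 < r1 - r0 := sub_pos.2 hr
  have hMc : (0 : ℝ) < M.card := by exact_mod_cast hM.card_pos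
  have hint : IntegrableOn (fun r => ∑ m ∈ M, f r m) (Set.Ioc r0 r1) volume := by
    refine integrable_finsetSum _ fun m hm => ?_
    have := hi m hm
    rwa [intervalIntegrable_iff_integrableOn_Ioc_of_le hr.le] at this
  have hvol : volume (Set.Ioc r0 r1) ≠ 0 := by
    rw [Real.volume_Ioc]
    simpa using hr
  have hvol' : volume (Set.Ioc r0 r1) ≠ ⊤ := by
    rw [Real.volume_Ioc]
    exact ENNReal.ofReal_ne_top
  obtain ⟨r, hrm, hrle⟩ := exists_le_setAverage hvol hvol' hint
  have hrI : r ∈ Set.Icc r0 r1 := Set.Ioc_subset_Icc_self hrm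
  have havg : (⨍ a in Set.Ioc r0 r1, ∑ m ∈ M, f a m) ≤ M.card * (B / (r1 - r0)) := by
    rw [setAverage_eq, smul_eq_mul]
    have e1 : volume.real (Set.Ioc r0 r1) = r1 - r0 := by
      rw [measureReal_def, Real.volume_Ioc, ENNReal.toReal_ofReal hl.le]
    have e2 : ∫ a in Set.Ioc r0 r1, ∑ m ∈ M, f a m ≤ M.card * B := by
      rw [integral_finsetSum]
      · calc ∑ m ∈ M, ∫ a in Set.Ioc r0 r1, f a m
            = ∑ m ∈ M, ∫ a in r0..r1, f a m :=
              Finset.sum_congr rfl fun m _ => (intervalIntegral.integral_of_le hr.le).symm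
          _ ≤ ∑ _m ∈ M, B := Finset.sum_le_sum hB
          _ = M.card * B := by rw [Finset.sum_const, nsmul_eq_mul]
      · intro m hm
        have := hi m hm
        rwa [intervalIntegrable_iff_integrableOn_Ioc_of_le hr.le] at this
    rw [e1]
    calc (r1 - r0)⁻¹ * ∫ a in Set.Ioc r0 r1, ∑ m ∈ M, f a m
        ≤ (r1 - r0)⁻¹ * (M.card * B) := mul_le_mul_of_nonneg_left e2 (inv_nonneg.2 hl.le)
      _ = M.card * (B / (r1 - r0)) := by rw [div_eq_mul_inv]; ring
  have hB0 : 0 ≤ B := by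
    obtain ⟨m, hm⟩ := hM
    refine le_trans ?_ (hB m hm)
    exact intervalIntegral.integral_nonneg hr.le fun r hr' => hf r hr' m hm
  have hC0 : 0 ≤ C := by
    have := hC r hrI
    exact (Finset.sum_nonneg fun m hm => hg r hrI m hm).trans this
  obtain ⟨m, hm, h1, h2⟩ := exists_two M hM (fun m hm => hf r hrI m hm)
    (fun m hm => hg r hrI m hm) (b := B / (r1 - r0)) (d := C / M.card) (by positivity)
    (by positivity) (hrle.trans havg) (by
      rw [mul_div_cancel₀ _ hMc.ne']
      exact hC r hrI)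
  exact ⟨r, hrI, m, hm, h1, h2⟩

/-- joint typical point, finite families of both kinds -/
theorem typ {ι : Type*} (M : Finset ι) (hM : M.Nonempty) {r0 r1 : ℝ} (hr : r0 < r1)
    {α δ : Type*} (A : Finset α) (D : Finset δ) {f : α → ℝ → ι → ℝ} {g : δ → ℝ → ι → ℝ}
    {B : α → ℝ} {C : δ → ℝ} (hB0 : ∀ a ∈ A, 0 < B a) (hC0 : ∀ d ∈ D, 0 < C d)
    (hf : ∀ a ∈ A, ∀ r ∈ Set.Icc r0 r1, ∀ m ∈ M, 0 ≤ f a r m)
    (hg : ∀ d ∈ D, ∀ r ∈ Set.Icc r0 r1, ∀ m ∈ M, 0 ≤ g d r m)
    (hi : ∀ a ∈ A, ∀ m ∈ M, IntervalIntegrable (fun r => f a r m) volume r0 r1)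
    (hB : ∀ a ∈ A, ∀ m ∈ M, ∫ r in r0..r1, f a r m ≤ B a)
    (hC : ∀ d ∈ D, ∀ r ∈ Set.Icc r0 r1, ∑ m ∈ M, g d r m ≤ C d) :
    ∃ r ∈ Set.Icc r0 r1, ∃ m ∈ M, (∀ a ∈ A, f a r m ≤ 3 * A.card * B a / (r1 - r0)) ∧
      ∀ d ∈ D, g d r m ≤ 3 * D.card * C d / M.card := by
  have hl : 0 < r1 - r0 := sub_pos.2 hr
  have hMc : (0 : ℝ) < M.card := by exact_mod_cast hM.card_pos
  obtain ⟨r, hrI, m, hm, h1, h2⟩ := typ₁ M hM hr (f := fun r m => ∑ a ∈ A, f a r m / B a)
    (g := fun r m => ∑ d ∈ D, g d r m / C d) (B := A.card) (C := D.card)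
    (fun r hr' m hm => Finset.sum_nonneg fun a ha =>
      div_nonneg (hf a ha r hr' m hm) (hB0 a ha).le)
    (fun r hr' m hm => Finset.sum_nonneg fun d hd =>
      div_nonneg (hg d hd r hr' m hm) (hC0 d hd).le)
    (fun m hm => by
      have := IntervalIntegrable.sum A (f := fun a r => f a r m / B a) (μ := volume)
        (a := r0) (b := r1) fun a ha => (hi a ha m hm).div_const (B a)
      have e : (∑ i ∈ A, fun r => f i r m / B i) = fun r => ∑ a ∈ A, f a r m / B a := by
        funext r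
        simp
      rwa [e] at this)
    (fun m hm => by
      rw [intervalIntegral.integral_finsetSum fun a ha => (hi a ha m hm).div_const (B a)]
      calc ∑ a ∈ A, ∫ r in r0..r1, f a r m / B a
          ≤ ∑ _a ∈ A, (1 : ℝ) := by
            refine Finset.sum_le_sum fun a ha => ?_
            rw [intervalIntegral.integral_div]
            exact (div_le_one (hB0 a ha)).2 (hB a ha m hm)
        _ = A.card := by simp)
    (fun r hr' => by
      rw [Finset.sum_comm]
      calc ∑ d ∈ D, ∑ m ∈ M, g d r m / C d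
          ≤ ∑ _d ∈ D, (1 : ℝ) := by
            refine Finset.sum_le_sum fun d hd => ?_
            rw [← Finset.sum_div]
            exact (div_le_one (hC0 d hd)).2 (hC d hd r hr')
        _ = D.card := by simp)
  refine ⟨r, hrI, m, hm, fun a ha => ?_, fun d hd => ?_⟩
  · have h3 : f a r m / B a ≤ 3 * (A.card / (r1 - r0)) :=
      (Finset.single_le_sum (f := fun a => f a r m / B a)
        (fun a ha => div_nonneg (hf a ha r hrI m hm) (hB0 a ha).le) ha).trans h1
    rw [div_le_iff₀ (hB0 a ha)] at h3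
    calc f a r m ≤ 3 * (A.card / (r1 - r0)) * B a := h3
      _ = 3 * A.card * B a / (r1 - r0) := by ring
  · have h3 : g d r m / C d ≤ 3 * (D.card / M.card) :=
      (Finset.single_le_sum (f := fun d => g d r m / C d)
        (fun d hd => div_nonneg (hg d hd r hrI m hm) (hC0 d hd).le) hd).trans h2
    rw [div_le_iff₀ (hC0 d hd)] at h3
    calc g d r m ≤ 3 * (D.card / M.card) * C d := h3
      _ = 3 * D.card * C d / M.card := by ring

end Vale.Agent.P146.H418
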